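import Vale.Agent.P204.Defs

/-!
P204: the average of a closed two-form over the torus fibres.
-/

open MeasureTheory Set Module
open scoped Topology

namespace Vale.Agent.P204

/-- The unit cube in the fibre. -/
def cube : Set F := Set.pi Set.univ fun _ => Set.Ico (0 : ℝ) 1

lemma cube_subset : cube ⊆ Set.pi Set.univ fun _ => Set.Icc (0 : ℝ) 1 :=
  Set.pi_mono fun _ _ => Set.Ico_subset_Icc_self

lemma measurableSet_cube : MeasurableSet cube := MeasurableSet.univ_pi fun _ => measurableSet_Ico

lemma volume_cube : volume cube = 1 := by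
  simp [cube, Real.volume_Ico, volume_pi_pi]

lemma integrableOn_cube {G : Type*} [NormedAddCommGroup G] {f : F → G} (hf : Continuous f) :
    IntegrableOn f cube :=
  (hf.continuousOn.integrableOn_compact (isCompact_univ_pi fun _ => isCompact_Icc)).mono_set
    cube_subset

/-- The lattice `ℤ³`. -/
noncomputable abbrev latt : Submodule ℤ F := Submodule.span ℤ (Set.range (Pi.basisFun ℝ (Fin 3)))

lemma mem_latt {x : F} : x ∈ latt ↔ ∃ n, x = intVec n := by
  rw [latt, (Pi.basisFun ℝ (Fin 3)).mem_span_iff_repr_mem ℤ x]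
  constructor
  · intro h
    choose n hn using h
    exact ⟨n, funext fun i => by simpa [intVec] using (hn i).symm⟩
  · rintro ⟨n, rfl⟩ i
    exact ⟨n i, by simp [intVec]⟩

lemma realMat_mulVec_intVec (A : (Matrix (Fin 3) (Fin 3) ℤ)ˣ) (n : Fin 3 → ℤ) :
    (realMat A).mulVec (intVec n) = intVec ((A : Matrix (Fin 3) (Fin 3) ℤ).mulVec n) := by
  funext i
  simp [intVec, realMat, Matrix.mulVec, dotProduct, Matrix.map_apply]

lemma realMat_mul_inv (A : (Matrix (Fin 3) (Fin 3) ℤ)ˣ) : realMat A * realMat A⁻¹ = 1 := by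
  rw [realMat, realMat, show (fun z : ℤ => (z : ℝ)) = ⇑(Int.castRingHom ℝ) from rfl,
    ← Matrix.map_mul, Units.mul_inv]
  simp

lemma realMat_inv_mul (A : (Matrix (Fin 3) (Fin 3) ℤ)ˣ) : realMat A⁻¹ * realMat A = 1 := by
  simpa using realMat_mul_inv A⁻¹

lemma abs_det_realMat (A : (Matrix (Fin 3) (Fin 3) ℤ)ˣ) : |(realMat A).det| = 1 := by
  have h : IsUnit (A : Matrix (Fin 3) (Fin 3) ℤ).det :=
    (Matrix.isUnit_iff_isUnit_det _).1 A.isUnit
  rw [realMat, show (fun z : ℤ => (z : ℝ)) = ⇑(Int.castRingHom ℝ) from rfl,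
    ← RingHom.mapMatrix_apply, ← RingHom.map_det]
  rcases Int.isUnit_iff.1 h with h | h <;> simp [h]

/-- An affine automorphism of the lattice structure of the fibre. -/
noncomputable def affEquiv (A : (Matrix (Fin 3) (Fin 3) ℤ)ˣ) (c : F) : F ≃ F where
  toFun p := (realMat A).mulVec p + c
  invFun p := (realMat A⁻¹).mulVec (p - c)
  left_inv p := by simp [Matrix.mulVec_mulVec, realMat_inv_mul]
  right_inv p := by simp [Matrix.mulVec_mulVec, realMat_mul_inv]

lemma measurePreserving_mulVec (A : (Matrix (Fin 3) (Fin 3) ℤ)ˣ) :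
    MeasurePreserving (fun p : F => (realMat A).mulVec p) := by
  have hd : (realMat A).det ≠ 0 := fun h => by simpa [h] using abs_det_realMat A
  refine ⟨Continuous.measurable (by fun_prop), ?_⟩
  have := Real.map_matrix_volume_pi_eq_smul_volume_pi hd
  simp only [abs_inv, abs_det_realMat A, inv_one, ENNReal.ofReal_one, one_smul,
    Matrix.toLin'_apply'] at this
  exact this

lemma measurePreserving_aff (A : (Matrix (Fin 3) (Fin 3) ℤ)ˣ) (c : F) :
    MeasurePreserving (affEquiv A c) :=
  (measurePreserving_add_right (volume : Measure F) c).comp (measurePreserving_mulVec A)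

lemma measurePreserving_aff_symm (A : (Matrix (Fin 3) (Fin 3) ℤ)ˣ) (c : F) :
    MeasurePreserving (affEquiv A c).symm :=
  (measurePreserving_mulVec A⁻¹).comp (measurePreserving_sub_right (volume : Measure F) c)

/-- Integrals of periodic functions over the cube are invariant under affine automorphisms. -/
lemma integral_cube_aff {G : Type*} [NormedAddCommGroup G] [NormedSpace ℝ G]
    (A : (Matrix (Fin 3) (Fin 3) ℤ)ˣ) (c : F) {f : F → G}
    (hf : ∀ p n, f (p + intVec n) = f p) :
    ∫ p in cube, f ((realMat A).mulVec p + c) = ∫ p in cube, f p := by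
  set g := affEquiv A c
  have hD : IsAddFundamentalDomain latt cube volume := by
    have := ZSpan.isAddFundamentalDomain (Pi.basisFun ℝ (Fin 3)) (volume : Measure F)
    rwa [ZSpan.fundamentalDomain_pi_basisFun] at this
  let e : latt ≃ latt :=
    { toFun := fun x => ⟨(realMat A⁻¹).mulVec x, by
        obtain ⟨n, hn⟩ := mem_latt.1 x.2
        rw [hn, realMat_mulVec_intVec]
        exact mem_latt.2 ⟨_, rfl⟩⟩
      invFun := fun x => ⟨(realMat A).mulVec x, by
        obtain ⟨n, hn⟩ := mem_latt.1 x.2
        rw [hn, realMat_mulVec_intVec]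
        exact mem_latt.2 ⟨_, rfl⟩⟩
      left_inv := fun x => Subtype.ext (by simp [Matrix.mulVec_mulVec, realMat_mul_inv])
      right_inv := fun x => Subtype.ext (by simp [Matrix.mulVec_mulVec, realMat_inv_mul]) }
  have hD' : IsAddFundamentalDomain latt (g '' cube) volume := by
    refine hD.image_of_equiv g (measurePreserving_aff_symm A c).quasiMeasurePreserving e
      fun x p => ?_
    simp [g, affEquiv, e, Submodule.vadd_def, vadd_eq_add, Matrix.mulVec_add,
      Matrix.mulVec_mulVec, realMat_mul_inv, add_assoc]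
  have hinv : ∀ (x : latt) (p : F), f (x +ᵥ p) = f p := fun x p => by
    obtain ⟨n, hn⟩ := mem_latt.1 x.2
    rw [Submodule.vadd_def, vadd_eq_add, add_comm, hn, hf]
  have hemb : MeasurableEmbedding g :=
    MeasurableEquiv.measurableEmbedding
      ⟨g, (measurePreserving_aff A c).measurable, (measurePreserving_aff_symm A c).measurable⟩
  have : VAddInvariantMeasure latt F (volume : Measure F) :=
    inferInstanceAs (VAddInvariantMeasure latt.toAddSubgroup F volume)
  have h1 := (measurePreserving_aff A c).setIntegral_image_emb hemb f cube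
  exact h1.symm.trans (hD'.setIntegral_eq hD hinv)

/-- Translation invariance. -/
lemma integral_cube_add {G : Type*} [NormedAddCommGroup G] [NormedSpace ℝ G] (c : F) {f : F → G}
    (hf : ∀ p n, f (p + intVec n) = f p) : ∫ p in cube, f (p + c) = ∫ p in cube, f p := by
  simpa [realMat] using integral_cube_aff 1 c hf

/-- Differentiation under the integral over the cube, along a direction. -/
lemma hasDerivAt_integral_cube {g : E → ℝ} (hg : ContDiff ℝ 1 g) (t : ℝ) (v : E) :
    HasDerivAt (fun s : ℝ => ∫ p in cube, g ((t, p) + s • v))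
      (∫ p in cube, fderiv ℝ g (t, p) v) 0 := by
  have hK : IsCompact ((Set.Icc (-1 : ℝ) 1) ×ˢ (Set.pi Set.univ fun _ : Fin 3 => Set.Icc (0 : ℝ) 1)) :=
    isCompact_Icc.prod (isCompact_univ_pi fun _ => isCompact_Icc)
  have hd := hg.continuous_fderiv one_ne_zero
  have hgc := hg.continuous
  have hc : Continuous fun q : ℝ × F => fderiv ℝ g ((t, q.2) + q.1 • v) v := by fun_prop
  obtain ⟨C, hC⟩ := hK.exists_bound_of_continuousOn hc.continuousOn
  have hD : ∀ (p : F) (s : ℝ), HasDerivAt (fun s : ℝ => g ((t, p) + s • v)) (fderiv ℝ g ((t, p) + s • v) v) s := by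
    intro p s
    have hl : HasDerivAt (fun s : ℝ => (t, p) + s • v) v s := by
      simpa using ((hasDerivAt_id s).smul_const v).const_add ((t, p) : E)
    exact ((hg.differentiable one_ne_zero _).hasFDerivAt).comp_hasDerivAt s hl
  have key := (hasDerivAt_integral_of_dominated_loc_of_deriv_le
    (μ := volume.restrict cube) (bound := fun _ => C)
    (F := fun (s : ℝ) (p : F) => g ((t, p) + s • v))
    (F' := fun s p => fderiv ℝ g ((t, p) + s • v) v) (x₀ := 0)
    (Metric.ball_mem_nhds (0 : ℝ) one_pos)
    (Filter.Eventually.of_forall fun s =>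
      (by fun_prop : Continuous fun p : F => g ((t, p) + s • v)).aestronglyMeasurable)
    (integrableOn_cube (by fun_prop))
    (by fun_prop : Continuous fun p : F => fderiv ℝ g ((t, p) + (0 : ℝ) • v) v).aestronglyMeasurable
    (by
      refine (ae_restrict_mem measurableSet_cube).mono fun p hp s hs => hC (s, p) ⟨?_, cube_subset hp⟩
      rw [Metric.mem_ball, Real.dist_eq, sub_zero, abs_lt] at hs
      exact ⟨hs.1.le, hs.2.le⟩)
    (integrableOn_cube continuous_const)
    (ae_of_all _ fun p s _ => hD p s)).2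
  simpa using key

/-- A fibre derivative of a periodic function has mean zero. -/
lemma integral_cube_fderiv_eq_zero {g : E → ℝ} (hg : ContDiff ℝ 1 g)
    (hp : ∀ x n, g (x + ((0 : ℝ), intVec n)) = g x) (t : ℝ) (a : F) :
    ∫ p in cube, fderiv ℝ g (t, p) ((0 : ℝ), a) = 0 := by
  have h := hasDerivAt_integral_cube hg t ((0 : ℝ), a)
  have hconst : (fun s : ℝ => ∫ p in cube, g ((t, p) + s • ((0 : ℝ), a)))
      = fun _ => ∫ p in cube, g (t, p) := by
    funext s
    have := integral_cube_add (s • a) (f := fun p => g (t, p)) fun p n => by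
      simpa using hp (t, p) n
    simpa using this
  rw [hconst] at h
  exact h.unique (hasDerivAt_const 0 _)

variable {A : (Matrix (Fin 3) (Fin 3) ℤ)ˣ} {ω : E → E →L[ℝ] E →L[ℝ] ℝ}

/-- The mean of `ω (t, ·)` on a pair of fibre vectors. -/
noncomputable def fibreMean (ω : E → E →L[ℝ] E →L[ℝ] ℝ) (t : ℝ) (a b : F) : ℝ :=
  ∫ p in cube, ω (t, p) ((0 : ℝ), a) ((0 : ℝ), b)

lemma IsClosedForm.contDiff_apply (hω : IsClosedForm A ω) (u v : E) :
    ContDiff ℝ 1 fun x => ω x u v :=
  ((hω.smooth.clm_apply contDiff_const).clm_apply contDiff_const).of_le (by simp)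

lemma IsClosedForm.fderiv_apply₂ (hω : IsClosedForm A ω) (x h u v : E) :
    fderiv ℝ (fun y => ω y u v) x h = fderiv ℝ ω x h u v := by
  have h0 := (hω.smooth.differentiable (by simp) x).hasFDerivAt
  have h1 := (h0.clm_apply (hasFDerivAt_const u x)).clm_apply (hasFDerivAt_const v x)
  rw [h1.fderiv]
  simp

lemma IsClosedForm.continuous_apply (hω : IsClosedForm A ω) (t : ℝ) (u v : E) :
    Continuous fun p => ω (t, p) u v :=
  (hω.contDiff_apply u v).continuous.comp (by fun_prop)

/-- The fibre mean does not depend on the base point. -/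
lemma fibreMean_eq (hω : IsClosedForm A ω) (t : ℝ) (a b : F) :
    fibreMean ω t a b = fibreMean ω 0 a b := by
  set u : E := ((0 : ℝ), a)
  set v : E := ((0 : ℝ), b)
  have hg := hω.contDiff_apply u v
  have hder : ∀ s, HasDerivAt (fun s => fibreMean ω s a b) 0 s := by
    intro s
    have h := hasDerivAt_integral_cube hg s ((1 : ℝ), (0 : F))
    have z : ∀ (a' : F) (u' v' : E),
        ∫ p in cube, fderiv ℝ ω (s, p) ((0 : ℝ), a') u' v' = 0 := fun a' u' v' => by
      have := integral_cube_fderiv_eq_zero (hω.contDiff_apply u' v')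
        (fun x n => by rw [hω.periodic]) s a'
      simpa only [hω.fderiv_apply₂] using this
    have hi : ∀ h' u' v' : E,
        IntegrableOn (fun p => fderiv ℝ ω (s, p) h' u' v') cube := fun h' u' v' => by
      refine integrableOn_cube ?_
      have := hω.smooth.continuous_fderiv (by simp)
      fun_prop
    have h0 : ∫ p in cube, fderiv ℝ (fun y => ω y u v) (s, p) ((1 : ℝ), (0 : F)) = 0 := by
      have e : ∀ p, fderiv ℝ (fun y => ω y u v) (s, p) ((1 : ℝ), (0 : F))
          = -fderiv ℝ ω (s, p) u v ((1 : ℝ), 0) - fderiv ℝ ω (s, p) v ((1 : ℝ), 0) u := fun p => by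
        rw [hω.fderiv_apply₂]
        linarith [hω.closed (s, p) ((1 : ℝ), 0) u v]
      have i1 : Integrable (fun p => -fderiv ℝ ω (s, p) u v ((1 : ℝ), 0)) (volume.restrict cube) :=
        (hi _ _ _).neg
      have i2 : Integrable (fun p => fderiv ℝ ω (s, p) v ((1 : ℝ), 0) u) (volume.restrict cube) :=
        hi _ _ _
      rw [setIntegral_congr_fun measurableSet_cube fun p _ => e p,
        integral_sub i1 i2, integral_neg, z, z]
      simp
    rw [h0] at h
    have h2 : HasDerivAt (fun r => fibreMean ω (s + r) a b) 0 (s - s) := by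
      simpa [fibreMean, u, v] using h
    simpa using h2.comp_sub_const s s
  exact is_const_of_deriv_eq_zero (fun s => (hder s).differentiableAt) (fun s => (hder s).deriv) t 0

/-- The fibre mean is invariant under the gluing map. -/
lemma fibreMean_glue (hω : IsClosedForm A ω) (a b : F) :
    fibreMean ω 0 ((realMat A).mulVec a) ((realMat A).mulVec b) = fibreMean ω 0 a b := by
  rw [← fibreMean_eq hω 1]
  unfold fibreMean
  have hper : ∀ p n, ω (1, p + intVec n) ((0 : ℝ), (realMat A).mulVec a)
      ((0 : ℝ), (realMat A).mulVec b)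
      = ω (1, p) ((0 : ℝ), (realMat A).mulVec a) ((0 : ℝ), (realMat A).mulVec b) := fun p n => by
    rw [show ((1 : ℝ), p + intVec n) = ((1 : ℝ), p) + ((0 : ℝ), intVec n) by simp, hω.periodic]
  rw [← integral_cube_aff A 0 hper]
  refine setIntegral_congr_fun measurableSet_cube fun p _ => ?_
  simpa [glue] using hω.descend 0 p ((0 : ℝ), a) ((0 : ℝ), b)

/-- The averaged form, constant on the universal cover and zero on the base direction. -/
noncomputable def meanForm (ω : E → E →L[ℝ] E →L[ℝ] ℝ) : E →L[ℝ] E →L[ℝ] ℝ :=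
  (∫ p in cube, ω (0, p)).bilinearComp
    ((ContinuousLinearMap.inr ℝ ℝ F).comp (ContinuousLinearMap.snd ℝ ℝ F))
    ((ContinuousLinearMap.inr ℝ ℝ F).comp (ContinuousLinearMap.snd ℝ ℝ F))

lemma meanForm_apply (hω : IsClosedForm A ω) (u v : E) :
    meanForm ω u v = fibreMean ω 0 u.2 v.2 := by
  have h1 := integrableOn_cube (f := fun p : F => ω ((0 : ℝ), p))
    (hω.smooth.continuous.comp (continuous_const.prodMk continuous_id))
  simp only [meanForm, ContinuousLinearMap.bilinearComp_apply, ContinuousLinearMap.comp_apply,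
    ContinuousLinearMap.inr_apply, ContinuousLinearMap.coe_snd', fibreMean]
  rw [ContinuousLinearMap.integral_apply h1,
    ContinuousLinearMap.integral_apply (h1.apply_continuousLinearMap _)]

lemma meanForm_skew (hω : IsClosedForm A ω) (u v : E) :
    meanForm ω u v = -meanForm ω v u := by
  rw [meanForm_apply hω, meanForm_apply hω, fibreMean, fibreMean, ← integral_neg]
  exact setIntegral_congr_fun measurableSet_cube fun p _ => hω.skew _ _ _

lemma meanForm_glue (hω : IsClosedForm A ω) (u v : E) :
    meanForm ω (glue A u) (glue A v) = meanForm ω u v := by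
  rw [meanForm_apply hω, meanForm_apply hω]
  simpa [glue] using fibreMean_glue hω u.2 v.2

/-- On a complex line inside the fibres the averaged form is positive. -/
lemma meanForm_pos (hω : IsClosedForm A ω) {J : ℝ → E →L[ℝ] E} (hT : Tames J ω) {t : ℝ} {l : E}
    (h1 : l.1 = 0) (h2 : (J t l).1 = 0) (hl : l ≠ 0) : 0 < meanForm ω l (J t l) := by
  rw [meanForm_apply hω, ← fibreMean_eq hω t, fibreMean]
  have e : ((0 : ℝ), l.2) = l := Prod.ext h1.symm rfl
  have e' : ((0 : ℝ), (J t l).2) = J t l := Prod.ext h2.symm rfl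
  rw [e, e']
  have hp : ∀ p, 0 < ω (t, p) l (J t l) := fun p => hT (t, p) l hl
  rw [setIntegral_pos_iff_support_of_nonneg_ae (ae_of_all _ fun p => (hp p).le)
    (integrableOn_cube (hω.continuous_apply t l (J t l)))]
  rw [show Function.support (fun p => ω (t, p) l (J t l)) = Set.univ from
    Set.eq_univ_of_forall fun p => (hp p).ne', Set.univ_inter, volume_cube]
  exact one_pos

end Vale.Agent.P204
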