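import Mathlib

/-!
P204: almost complex structures and two-forms on a mapping torus of the three-torus.

A point of the universal cover is `(t, p)` with `t : ℝ` and `p : ℝ³`. For `A` in `GL₃(ℤ)` the closed
four-manifold `X_A` is the quotient by `(t, p) ↦ (t, p + n)`, `n ∈ ℤ³`, and `(t, p) ↦ (t + 1, A p)`.
-/

namespace Vale.Agent.P204

/-- Tangent space of the fibre. -/
abbrev F := Fin 3 → ℝ

/-- The universal cover and its tangent space. -/
abbrev E := ℝ × F

/-- An integer vector of the fibre. -/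
def intVec (n : Fin 3 → ℤ) : F := fun i => (n i : ℝ)

/-- The real matrix of an element of `GL₃(ℤ)`. -/
def realMat (A : (Matrix (Fin 3) (Fin 3) ℤ)ˣ) : Matrix (Fin 3) (Fin 3) ℝ :=
  (A : Matrix (Fin 3) (Fin 3) ℤ).map fun z => (z : ℝ)

/-- The linear map `(s, v) ↦ (s, A v)`: the derivative of the deck transformation. -/
noncomputable def glue (A : (Matrix (Fin 3) (Fin 3) ℤ)ˣ) : E →L[ℝ] E :=
  LinearMap.toContinuousLinearMap ((LinearMap.id).prodMap (realMat A).mulVecLin)

/-- An almost complex structure on `X_A` invariant under translations of the torus fibres. -/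
structure IsInvariantACS (A : (Matrix (Fin 3) (Fin 3) ℤ)ˣ) (J : ℝ → E →L[ℝ] E) : Prop where
  smooth : ContDiff ℝ (⊤ : ℕ∞) J
  sq : ∀ t u, J t (J t u) = -u
  descend : ∀ t u, J (t + 1) (glue A u) = glue A (J t u)

/-- A smooth closed two-form on `X_A`, seen on the universal cover. -/
structure IsClosedForm (A : (Matrix (Fin 3) (Fin 3) ℤ)ˣ) (ω : E → E →L[ℝ] E →L[ℝ] ℝ) : Prop where
  smooth : ContDiff ℝ (⊤ : ℕ∞) ω
  skew : ∀ x u v, ω x u v = -ω x v u
  periodic : ∀ x n, ω (x + ((0 : ℝ), intVec n)) = ω x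
  descend : ∀ t p u v, ω (t + 1, (realMat A).mulVec p) (glue A u) (glue A v) = ω (t, p) u v
  closed : ∀ x u v w,
    fderiv ℝ ω x u v w + fderiv ℝ ω x v w u + fderiv ℝ ω x w u v = 0

/-- `ω` is positive on every complex line of `J`; it is then nondegenerate. -/
def Tames (J : ℝ → E →L[ℝ] E) (ω : E → E →L[ℝ] E →L[ℝ] ℝ) : Prop :=
  ∀ x u, u ≠ 0 → 0 < ω x u (J x.1 u)

/-- `ω` is invariant under `J`. -/
def IsInvariantForm (J : ℝ → E →L[ℝ] E) (ω : E → E →L[ℝ] E →L[ℝ] ℝ) : Prop :=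
  ∀ x u v, ω x (J x.1 u) (J x.1 v) = ω x u v

end Vale.Agent.P204
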