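import Vale.Agent.P204.Average

/-!
P204: the compatible form built from a constant fibre form.
-/

open ContinuousLinearMap

namespace Vale.Agent.P204

/-- The base direction. -/
def e0 : E := ((1 : ℝ), 0)

variable {A : (Matrix (Fin 3) (Fin 3) ℤ)ˣ} {J : ℝ → E →L[ℝ] E}

/-- The exterior product of two linear forms. -/
noncomputable def wedge (a b : E →L[ℝ] ℝ) : E →L[ℝ] E →L[ℝ] ℝ :=
  a.smulRight b - b.smulRight a

lemma wedge_apply (a b : E →L[ℝ] ℝ) (u v : E) : wedge a b u v = a u * b v - b u * a v := by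
  simp [wedge]

/-- The base component of `J e0`. -/
noncomputable def cj (J : ℝ → E →L[ℝ] E) (t : ℝ) : ℝ := (J t e0).1

/-- The coordinate along `e0`. -/
noncomputable def alpha (J : ℝ → E →L[ℝ] E) (t : ℝ) : E →L[ℝ] ℝ :=
  (1 + cj J t ^ 2)⁻¹ • (fst ℝ ℝ F + cj J t • (fst ℝ ℝ F).comp (J t))

/-- The coordinate along `J e0`. -/
noncomputable def beta (J : ℝ → E →L[ℝ] E) (t : ℝ) : E →L[ℝ] ℝ :=
  (1 + cj J t ^ 2)⁻¹ • (cj J t • fst ℝ ℝ F - (fst ℝ ℝ F).comp (J t))

/-- The projection to the complex line inside the fibre. -/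
noncomputable def proj (J : ℝ → E →L[ℝ] E) (t : ℝ) : E →L[ℝ] E :=
  ContinuousLinearMap.id ℝ E - (alpha J t).smulRight e0 - (beta J t).smulRight (J t e0)

/-- The mixed part forced by invariance. -/
noncomputable def mixA (B : E →L[ℝ] E →L[ℝ] ℝ) (J : ℝ → E →L[ℝ] E) (t : ℝ) : E →L[ℝ] ℝ :=
  (1 + cj J t ^ 2)⁻¹ • ((B.flip (J t e0)).comp ((J t).comp (proj J t))
    - cj J t • (B.flip (J t e0)).comp (proj J t))

/-- The second mixed part. -/
noncomputable def mixB (B : E →L[ℝ] E →L[ℝ] ℝ) (J : ℝ → E →L[ℝ] E) (t : ℝ) : E →L[ℝ] ℝ :=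
  (mixA B J t).comp (J t)

/-- The compatible form at base point `t`; `T` weighs the positive vertical part. -/
noncomputable def model (B : E →L[ℝ] E →L[ℝ] ℝ) (J : ℝ → E →L[ℝ] E) (T t : ℝ) :
    E →L[ℝ] E →L[ℝ] ℝ :=
  B.bilinearComp (proj J t) (proj J t) + wedge (mixA B J t) (alpha J t)
    - wedge (mixB B J t) (beta J t) + T • wedge (alpha J t) (beta J t)

lemma model_apply (B : E →L[ℝ] E →L[ℝ] ℝ) (J : ℝ → E →L[ℝ] E) (T t : ℝ) (u v : E) :
    model B J T t u v = B (proj J t u) (proj J t v)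
      + (mixA B J t u * alpha J t v - alpha J t u * mixA B J t v)
      - (mixB B J t u * beta J t v - beta J t u * mixB B J t v)
      + T * (alpha J t u * beta J t v - beta J t u * alpha J t v) := by
  simp [model, wedge_apply]

lemma alpha_eq (t : ℝ) (u : E) :
    alpha J t u = (u.1 + cj J t * (J t u).1) / (1 + cj J t ^ 2) := by
  simp [alpha, div_eq_inv_mul]; ring

lemma beta_eq (t : ℝ) (u : E) :
    beta J t u = (cj J t * u.1 - (J t u).1) / (1 + cj J t ^ 2) := by
  simp [beta, div_eq_inv_mul]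

lemma one_add_sq_pos (t : ℝ) : 0 < 1 + cj J t ^ 2 := by positivity

lemma proj_eq (t : ℝ) (u : E) :
    proj J t u = u - alpha J t u • e0 - beta J t u • J t e0 := by
  simp [proj]

lemma decomp (t : ℝ) (u : E) :
    u = proj J t u + alpha J t u • e0 + beta J t u • J t e0 := by
  rw [proj_eq]; abel

lemma fderiv_comp_base {W : Type*} [NormedAddCommGroup W] [NormedSpace ℝ W] {M : ℝ → W} {x : E}
    (hM : DifferentiableAt ℝ M x.1) (a : E) :
    fderiv ℝ (fun y : E => M y.1) x a = a.1 • deriv M x.1 := by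
  have h : HasFDerivAt (fun y : E => M y.1) ((fderiv ℝ M x.1).comp (fst ℝ ℝ F)) x :=
    hM.hasFDerivAt.comp x hasFDerivAt_fst
  rw [h.fderiv, ContinuousLinearMap.comp_apply, coe_fst', ← fderiv_apply_one_eq_deriv, ← map_smul,
    smul_eq_mul, mul_one]

lemma hasDerivAt_eval {V X : Type*} [NormedAddCommGroup V] [NormedSpace ℝ V]
    [NormedAddCommGroup X] [NormedSpace ℝ X] {M : ℝ → V →L[ℝ] X} {D : V →L[ℝ] X} {t : ℝ}
    (hM : HasDerivAt M D t) (b : V) : HasDerivAt (fun s => M s b) (D b) t :=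
  (ContinuousLinearMap.apply ℝ X b).hasFDerivAt.comp_hasDerivAt t hM

lemma hasDerivAt_eval₂ {V W : Type*} [NormedAddCommGroup V] [NormedSpace ℝ V]
    [NormedAddCommGroup W] [NormedSpace ℝ W] {M : ℝ → V →L[ℝ] V →L[ℝ] W} {t : ℝ}
    (hM : DifferentiableAt ℝ M t) (b c : V) :
    HasDerivAt (fun s => M s b c) (deriv M t b c) t := by
  exact hasDerivAt_eval (hasDerivAt_eval (X := V →L[ℝ] W) hM.hasDerivAt b) c

/-- A form depending on the base point alone and constant on fibre vectors is closed. -/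
lemma closed_of_fibre_const {M : ℝ → E →L[ℝ] E →L[ℝ] ℝ} (hM : Differentiable ℝ M)
    (hskew : ∀ t b c, M t b c = -M t c b) {B : E →L[ℝ] E →L[ℝ] ℝ}
    (hfib : ∀ t (b c : E), b.1 = 0 → c.1 = 0 → M t b c = B b c) (x u v w : E) :
    fderiv ℝ (fun y : E => M y.1) x u v w + fderiv ℝ (fun y : E => M y.1) x v w u
      + fderiv ℝ (fun y : E => M y.1) x w u v = 0 := by
  set D := deriv M x.1 with hDdef
  have hD : ∀ a b c : E, fderiv ℝ (fun y : E => M y.1) x a b c = a.1 * D b c := by
    intro a b c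
    rw [fderiv_comp_base (W := E →L[ℝ] E →L[ℝ] ℝ) (hM x.1), smul_apply, smul_apply, smul_eq_mul]
  have hd : ∀ b c : E, HasDerivAt (fun t => M t b c) (D b c) x.1 :=
    fun b c => hasDerivAt_eval₂ (V := E) (W := ℝ) (hM x.1) b c
  have hsk : ∀ b c, D b c = -D c b := fun b c => by
    have e : (fun t => M t b c) = fun t => -M t c b := funext fun t => hskew t b c
    exact (hd b c).unique (e ▸ (hd c b).neg)
  have hf : ∀ b c : E, b.1 = 0 → c.1 = 0 → D b c = 0 := fun b c hb hc => by
    have e : (fun t => M t b c) = fun _ => B b c := funext fun t => hfib t b c hb hc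
    exact (hd b c).unique (e ▸ hasDerivAt_const x.1 (B b c))
  have hdec : ∀ b c : E, D b c = b.1 * D e0 c - c.1 * D e0 b := fun b c => by
    have h := hf (b - b.1 • e0) (c - c.1 • e0) (by simp [e0]) (by simp [e0])
    have h0 : D e0 e0 = 0 := by linarith [hsk e0 e0]
    simp only [map_sub, map_smul, sub_apply, smul_apply, smul_eq_mul, h0] at h
    rw [hsk b e0] at h
    linarith
  rw [hD, hD, hD, hdec v w, hdec w u, hdec u v]
  ring

section acs

variable (hJ : IsInvariantACS A J)
include hJ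

lemma alpha_J (t : ℝ) (u : E) : alpha J t (J t u) = -beta J t u := by
  rw [alpha_eq, beta_eq, hJ.sq, Prod.fst_neg]; ring

lemma beta_J (t : ℝ) (u : E) : beta J t (J t u) = alpha J t u := by
  rw [alpha_eq, beta_eq, hJ.sq, Prod.fst_neg]; ring

lemma proj_J (t : ℝ) (u : E) : proj J t (J t u) = J t (proj J t u) := by
  rw [proj_eq, proj_eq, alpha_J hJ, beta_J hJ, map_sub, map_sub, map_smul, map_smul, hJ.sq,
    neg_smul, smul_neg]
  abel

lemma proj_fst (t : ℝ) (u : E) : (proj J t u).1 = 0 := by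
  have := one_add_sq_pos (J := J) t
  rw [proj_eq, alpha_eq, beta_eq]
  simp only [Prod.fst_sub, Prod.smul_fst, smul_eq_mul, e0, mul_one]
  rw [show (J t ((1 : ℝ), 0)).1 = cj J t from rfl]
  field_simp
  ring

lemma proj_fst' (t : ℝ) (u : E) : (J t (proj J t u)).1 = 0 := by
  rw [← proj_J hJ]; exact proj_fst hJ t _

lemma mixB_J (B : E →L[ℝ] E →L[ℝ] ℝ) (t : ℝ) (u : E) :
    mixB B J t (J t u) = -mixA B J t u := by
  simp [mixB, hJ.sq]

/-- A two-form on a complex line is invariant under the complex structure. -/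
lemma line_invariant {B : E →L[ℝ] E →L[ℝ] ℝ} (hB : ∀ u v, B u v = -B v u) (t : ℝ) {l m : E}
    (hl : l.1 = 0) (hl' : (J t l).1 = 0) (hm : m.1 = 0) (hm' : (J t m).1 = 0) :
    B (J t l) (J t m) = B l m := by
  have hB0 : ∀ u, B u u = 0 := fun u => by linarith [hB u u]
  by_cases h0 : l = 0
  · simp [h0]
  set f : E →L[ℝ] ℝ × ℝ := (fst ℝ ℝ F).prod ((fst ℝ ℝ F).comp (J t))
  set W := LinearMap.ker (f : E →ₗ[ℝ] ℝ × ℝ)
  have hmem : ∀ z : E, z ∈ W ↔ z.1 = 0 ∧ (J t z).1 = 0 := fun z => by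
    simp [W, f, LinearMap.mem_ker]
  have f1 : f e0 = ((1 : ℝ), cj J t) := by simp [f, e0, cj]
  have f2 : f (J t e0) = (cj J t, (-1 : ℝ)) := by simp [f, cj, hJ.sq, e0]
  have hsurj : Function.Surjective f := fun ab => by
    refine ⟨(((ab.1 + cj J t * ab.2) / (1 + cj J t ^ 2)) • e0
      + ((cj J t * ab.1 - ab.2) / (1 + cj J t ^ 2)) • J t e0 : E), ?_⟩
    have := one_add_sq_pos (J := J) t
    rw [map_add, map_smul, map_smul, f1, f2]
    ext <;> simp <;> field_simp <;> ring
  have hdim : Module.finrank ℝ W = 2 := by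
    have h := LinearMap.finrank_range_add_finrank_ker (f : E →ₗ[ℝ] ℝ × ℝ)
    rw [LinearMap.range_eq_top.2 hsurj, finrank_top] at h
    have h2 : Module.finrank ℝ (ℝ × ℝ) = 2 := by simp
    have h4 : Module.finrank ℝ E = 4 := by simp [E, F, Module.finrank_prod]
    simp only [h2, h4] at h
    change 2 + Module.finrank ℝ W = 4 at h
    omega
  have hli : LinearIndependent ℝ (![⟨l, (hmem l).2 ⟨hl, hl'⟩⟩,
      ⟨J t l, (hmem _).2 ⟨hl', by simp [hJ.sq, hl]⟩⟩] : Fin 2 → W) := by
    rw [LinearIndependent.pair_iff]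
    intro a b hab
    have h1 : a • l + b • J t l = 0 := congrArg Subtype.val hab
    have h2 : a • J t l + b • -l = 0 := by
      simpa [map_add, map_smul, hJ.sq] using congrArg (J t) h1
    have h3 : (a ^ 2 + b ^ 2) • l = 0 := by
      have : (a ^ 2 + b ^ 2) • l = a • (a • l + b • J t l) - b • (a • J t l + b • -l) := by module
      rw [this, h1, h2]; simp
    rcases smul_eq_zero.1 h3 with h | h
    · constructor <;> nlinarith [sq_nonneg a, sq_nonneg b]
    · exact absurd h h0
  have hspan := hli.span_eq_top_of_card_eq_finrank (by rw [hdim]; simp)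
  have hm2 : (⟨m, (hmem m).2 ⟨hm, hm'⟩⟩ : W) ∈ (⊤ : Submodule ℝ W) := trivial
  rw [← hspan, Matrix.range_cons_cons_empty, Submodule.mem_span_pair] at hm2
  obtain ⟨a, b, hab⟩ := hm2
  have hab' : a • l + b • J t l = m := congrArg Subtype.val hab
  rw [← hab']
  simp [map_add, map_smul, hJ.sq, hB0, hB (J t l) l]

/-- The model is invariant under `J`. -/
lemma model_invariant {B : E →L[ℝ] E →L[ℝ] ℝ} (hB : ∀ u v, B u v = -B v u) (T t : ℝ) (u v : E) :
    model B J T t (J t u) (J t v) = model B J T t u v := by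
  have hA : ∀ z, mixA B J t (J t z) = mixB B J t z := fun z => rfl
  rw [model_apply, model_apply, alpha_J hJ, alpha_J hJ, beta_J hJ, beta_J hJ, proj_J hJ,
    proj_J hJ, mixB_J hJ, mixB_J hJ, hA, hA,
    line_invariant hJ hB t (proj_fst hJ t u) (proj_fst' hJ t u) (proj_fst hJ t v)
      (proj_fst' hJ t v)]
  ring

/-- On fibre vectors the model is the given constant form. -/
lemma model_fibre {B : E →L[ℝ] E →L[ℝ] ℝ} (hB : ∀ u v, B u v = -B v u) (hB0 : ∀ v, B e0 v = 0)
    (T t : ℝ) {u v : E} (hu : u.1 = 0) (hv : v.1 = 0) : model B J T t u v = B u v := by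
  have hs := one_add_sq_pos (J := J) t
  have hab : ∀ z : E, z.1 = 0 → alpha J t z = -cj J t * beta J t z := fun z hz => by
    rw [alpha_eq, beta_eq, hz]; ring
  have key : ∀ z, -cj J t * mixA B J t z - mixB B J t z = B (proj J t z) (J t e0) := fun z => by
    simp only [mixA, mixB, coe_comp', Function.comp_apply, smul_apply, sub_apply,
      flip_apply, smul_eq_mul, proj_J hJ, hJ.sq, map_neg, neg_apply]
    field_simp
    ring
  have h1 : ∀ z, B z e0 = 0 := fun z => by rw [hB, hB0]; simp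
  have h2 : B (J t e0) (J t e0) = 0 := by linarith [hB (J t e0) (J t e0)]
  conv_rhs => rw [decomp (J := J) t u, decomp (J := J) t v]
  rw [model_apply, hab u hu, hab v hv]
  simp only [map_add, map_smul, add_apply, smul_apply, smul_eq_mul, hB0, h1, h2,
    hB (J t e0) (proj J t v)]
  linear_combination beta J t v * key u - beta J t u * key v

lemma model_skew {B : E →L[ℝ] E →L[ℝ] ℝ} (hB : ∀ u v, B u v = -B v u) (T t : ℝ) (u v : E) :
    model B J T t u v = -model B J T t v u := by
  rw [model_apply, model_apply, hB (proj J t u) (proj J t v)]; ring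

lemma cj_glue (t : ℝ) : cj J (t + 1) = cj J t := by
  have h := hJ.descend t e0
  rw [show glue A e0 = e0 by simp [glue, e0]] at h
  rw [cj, h]
  simp [glue, cj]

lemma alpha_glue (t : ℝ) (u : E) : alpha J (t + 1) (glue A u) = alpha J t u := by
  rw [alpha_eq, alpha_eq, cj_glue hJ, hJ.descend]
  simp [glue]

lemma beta_glue (t : ℝ) (u : E) : beta J (t + 1) (glue A u) = beta J t u := by
  rw [beta_eq, beta_eq, cj_glue hJ, hJ.descend]
  simp [glue]

lemma Je0_glue (t : ℝ) : J (t + 1) e0 = glue A (J t e0) := by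
  rw [← hJ.descend, show glue A e0 = e0 by simp [glue, e0]]

lemma proj_glue (t : ℝ) (u : E) : proj J (t + 1) (glue A u) = glue A (proj J t u) := by
  rw [proj_eq, proj_eq, alpha_glue hJ, beta_glue hJ, Je0_glue hJ, map_sub, map_sub, map_smul,
    map_smul, show glue A e0 = e0 by simp [glue, e0]]

lemma mixA_glue {B : E →L[ℝ] E →L[ℝ] ℝ} (hG : ∀ u v, B (glue A u) (glue A v) = B u v) (t : ℝ)
    (u : E) : mixA B J (t + 1) (glue A u) = mixA B J t u := by
  simp only [mixA, coe_comp', Function.comp_apply, smul_apply, sub_apply, flip_apply,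
    cj_glue hJ, proj_glue hJ, hJ.descend, Je0_glue hJ, hG]

lemma model_glue {B : E →L[ℝ] E →L[ℝ] ℝ} (hG : ∀ u v, B (glue A u) (glue A v) = B u v) (T t : ℝ)
    (u v : E) : model B J T (t + 1) (glue A u) (glue A v) = model B J T t u v := by
  have hmB : ∀ z, mixB B J (t + 1) (glue A z) = mixB B J t z := fun z => by
    simp only [mixB, coe_comp', Function.comp_apply, hJ.descend, mixA_glue hJ hG]
  rw [model_apply, model_apply, proj_glue hJ, proj_glue hJ, hG, alpha_glue hJ, alpha_glue hJ,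
    beta_glue hJ, beta_glue hJ, mixA_glue hJ hG, mixA_glue hJ hG, hmB, hmB]

lemma contDiff_model (B : E →L[ℝ] E →L[ℝ] ℝ) (T : ℝ) :
    ContDiff ℝ (⊤ : ℕ∞) fun t => model B J T t := by
  have hj : ∀ {g : ℝ → E}, ContDiff ℝ (⊤ : ℕ∞) g → ContDiff ℝ (⊤ : ℕ∞) fun t => J t (g t) :=
    fun hg => hJ.smooth.clm_apply hg
  have hje := hj (contDiff_const (c := e0))
  have hc : ContDiff ℝ (⊤ : ℕ∞) fun t => cj J t := contDiff_fst.comp hje
  have hd : ContDiff ℝ (⊤ : ℕ∞) fun t => 1 + cj J t ^ 2 := contDiff_const.add (hc.pow 2)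
  have hne : ∀ t, 1 + cj J t ^ 2 ≠ 0 := fun t => (one_add_sq_pos t).ne'
  have ha : ∀ u, ContDiff ℝ (⊤ : ℕ∞) fun t => alpha J t u := fun u => by
    simp only [alpha_eq]
    exact (contDiff_const.add (hc.mul (contDiff_fst.comp (hj contDiff_const)))).div hd hne
  have hb : ∀ u, ContDiff ℝ (⊤ : ℕ∞) fun t => beta J t u := fun u => by
    simp only [beta_eq]
    exact ((hc.mul contDiff_const).sub (contDiff_fst.comp (hj contDiff_const))).div hd hne
  have hp : ∀ u, ContDiff ℝ (⊤ : ℕ∞) fun t => proj J t u := fun u => by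
    simp only [proj_eq]
    exact (contDiff_const.sub ((ha u).smul contDiff_const)).sub ((hb u).smul hje)
  have hB : ∀ {f g : ℝ → E}, ContDiff ℝ (⊤ : ℕ∞) f → ContDiff ℝ (⊤ : ℕ∞) g →
      ContDiff ℝ (⊤ : ℕ∞) fun t => B (f t) (g t) := fun hf hg =>
    ((contDiff_const (c := B)).clm_apply hf).clm_apply hg
  have hq : ∀ u, ContDiff ℝ (⊤ : ℕ∞) fun t => mixA B J t u := fun u => by
    simp only [mixA, coe_comp', Function.comp_apply, smul_apply, sub_apply, flip_apply, smul_eq_mul]
    exact (hd.inv hne).mul ((hB (hj (hp u)) hje).sub (hc.mul (hB (hp u) hje)))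
  have hq' : ∀ u, ContDiff ℝ (⊤ : ℕ∞) fun t => mixB B J t u := fun u => by
    simp only [mixB, coe_comp', Function.comp_apply]
    have h1 : ∀ t, proj J t (J t u) = J t (proj J t u) := fun t => proj_J hJ t u
    simp only [mixA, coe_comp', Function.comp_apply, smul_apply, sub_apply, flip_apply, smul_eq_mul,
      h1]
    exact (hd.inv hne).mul ((hB (hj (hj (hp u))) hje).sub (hc.mul (hB (hj (hp u)) hje)))
  refine contDiff_clm_apply_iff.2 fun u => contDiff_clm_apply_iff.2 fun v => ?_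
  simp only [model_apply]
  exact (((hB (hp u) (hp v)).add (((hq u).mul (ha v)).sub ((ha u).mul (hq v)))).sub
    (((hq' u).mul (hb v)).sub ((hb u).mul (hq' v)))).add
    (contDiff_const.mul (((ha u).mul (hb v)).sub ((hb u).mul (ha v))))

/-- The model is closed as a two-form on the universal cover. -/
lemma model_closed {B : E →L[ℝ] E →L[ℝ] ℝ} (hB : ∀ u v, B u v = -B v u) (hB0 : ∀ v, B e0 v = 0)
    (T : ℝ) (x u v w : E) :
    fderiv ℝ (fun y : E => model B J T y.1) x u v w + fderiv ℝ (fun y : E => model B J T y.1) x v w u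
      + fderiv ℝ (fun y : E => model B J T y.1) x w u v = 0 :=
  closed_of_fibre_const ((contDiff_model hJ B T).differentiable (by simp))
    (fun t b c => model_skew hJ hB T t b c)
    (fun t _ _ hb hc => model_fibre hJ hB hB0 T t hb hc) x u v w

end acs

/-- A family that is positive where `g` vanishes becomes positive after adding a multiple of `g`. -/
lemma exists_weight {X : Type*} [TopologicalSpace X] {K : Set X} (hK : IsCompact K) {f g : X → ℝ}
    (hf : Continuous f) (hg : Continuous g) (hg0 : ∀ x ∈ K, 0 ≤ g x)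
    (hpos : ∀ x ∈ K, g x = 0 → 0 < f x) : ∃ T : ℝ, ∀ x ∈ K, 0 < f x + T * g x := by
  set U : ℕ → Set X := fun n => {x | 0 < f x + n * g x} ∪ {x | g x < 0}
  have hUo : ∀ n, IsOpen (U n) := fun n =>
    (isOpen_lt continuous_const (by fun_prop)).union (isOpen_lt hg continuous_const)
  have hsub : K ⊆ ⋃ n, U n := fun x hx => by
    rcases (hg0 x hx).eq_or_lt with h | h
    · exact Set.mem_iUnion.2 ⟨0, Or.inl (by simpa using hpos x hx h.symm)⟩
    · obtain ⟨n, hn⟩ := exists_nat_gt (-f x / g x)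
      rw [div_lt_iff₀ h] at hn
      exact Set.mem_iUnion.2 ⟨n, Or.inl (by show 0 < f x + n * g x; linarith)⟩
  obtain ⟨s, hs⟩ := hK.elim_finite_subcover U hUo hsub
  refine ⟨(s.sup id : ℕ), fun x hx => ?_⟩
  obtain ⟨n, hn, hxn⟩ := Set.mem_iUnion₂.1 (hs hx)
  rcases hxn with h | h
  · have h' : (0 : ℝ) < f x + n * g x := h
    have hle : (n : ℝ) ≤ (s.sup id : ℕ) := Nat.cast_le.2 (Finset.le_sup (f := id) hn)
    nlinarith [mul_le_mul_of_nonneg_right hle (hg0 x hx)]
  · exact absurd h (not_lt.2 (hg0 x hx))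

/-- With a large vertical weight the model tames `J`. -/
lemma exists_tames (hJ : IsInvariantACS A J) {B : E →L[ℝ] E →L[ℝ] ℝ}
    (hG : ∀ u v, B (glue A u) (glue A v) = B u v)
    (hpos : ∀ t l, l.1 = 0 → (J t l).1 = 0 → l ≠ 0 → 0 < B l (J t l)) :
    ∃ T, ∀ t u, u ≠ 0 → 0 < model B J T t u (J t u) := by
  set f : ℝ × E → ℝ := fun q => model B J 0 q.1 q.2 (J q.1 q.2)
  set g : ℝ × E → ℝ := fun q => alpha J q.1 q.2 ^ 2 + beta J q.1 q.2 ^ 2
  have hm := (contDiff_model hJ B 0).continuous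
  have hj := hJ.smooth.continuous
  have hf : Continuous f := by fun_prop
  have hg : Continuous g := by
    have hc : Continuous fun q : ℝ × E => cj J q.1 := by unfold cj; fun_prop
    simp only [g, alpha_eq, beta_eq, div_eq_mul_inv]
    have hs : Continuous fun q : ℝ × E => (1 + cj J q.1 ^ 2)⁻¹ :=
      (continuous_const.add (hc.pow 2)).inv₀ fun q => (one_add_sq_pos q.1).ne'
    fun_prop
  have hsplit : ∀ T t (u : E), model B J T t u (J t u) = f (t, u) + T * g (t, u) := by
    intro T t u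
    simp only [f, g, model_apply, alpha_J hJ, beta_J hJ]
    ring
  obtain ⟨T, hT⟩ := exists_weight ((isCompact_Icc (a := (0 : ℝ)) (b := 1)).prod
      (isCompact_sphere (0 : E) 1)) hf hg (fun q _ => by positivity) (fun q hq hg0 => by
    have ha : alpha J q.1 q.2 = 0 := by nlinarith [sq_nonneg (beta J q.1 q.2)]
    have hb : beta J q.1 q.2 = 0 := by nlinarith [sq_nonneg (alpha J q.1 q.2)]
    have hu : q.2 ≠ 0 := fun h => by simpa [h] using hq.2
    have hp : proj J q.1 q.2 = q.2 := by simp [proj_eq, ha, hb]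
    have h1 := proj_fst hJ q.1 q.2
    have h2 := proj_fst' hJ q.1 q.2
    rw [hp] at h1 h2
    simp only [f, model_apply, alpha_J hJ, beta_J hJ, ha, hb, proj_J hJ, hp]
    simpa using hpos q.1 q.2 h1 h2 hu)
  refine ⟨T, ?_⟩
  set P : ℝ → Prop := fun t => ∀ u, u ≠ 0 → 0 < model B J T t u (J t u)
  have hbase : ∀ t ∈ Set.Icc (0 : ℝ) 1, P t := fun t ht u hu => by
    have hn : 0 < ‖u‖ := norm_pos_iff.2 hu
    have h := hT (t, ‖u‖⁻¹ • u) ⟨ht, by simp [norm_smul, hn.ne']⟩
    rw [← hsplit] at h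
    simp only [map_smul, smul_apply, smul_eq_mul] at h
    exact pos_of_mul_pos_right (pos_of_mul_pos_right h (by positivity)) (by positivity)
  have hsurj : Function.Surjective (glue A) := fun v =>
    ⟨(v.1, (realMat A⁻¹).mulVec v.2), by simp [glue, Matrix.mulVec_mulVec, realMat_mul_inv]⟩
  have hshift : ∀ t, P (t + 1) ↔ P t := fun t => by
    constructor
    · intro h u hu
      have hgu : glue A u ≠ 0 := fun h0 => by
        refine hu (Prod.ext ?_ ?_)
        · simpa [glue] using congrArg Prod.fst h0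
        · have h1 := congrArg (fun z : E => (realMat A⁻¹).mulVec z.2) h0
          simpa [glue, Matrix.mulVec_mulVec, realMat_inv_mul] using h1
      have := h _ hgu
      rwa [hJ.descend, model_glue hJ hG] at this
    · intro h v hv
      obtain ⟨u, rfl⟩ := hsurj v
      have hu : u ≠ 0 := fun h0 => hv (by simp [h0])
      rw [hJ.descend, model_glue hJ hG]
      exact h u hu
  have hint : ∀ n : ℤ, ∀ s ∈ Set.Icc (0 : ℝ) 1, P (s + n) := by
    intro n
    induction n using Int.induction_on with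
    | zero => intro s hs; simpa using hbase s hs
    | succ i ih =>
      intro s hs
      rw [show s + ((i : ℤ) + 1 : ℤ) = (s + ((i : ℤ) : ℝ)) + 1 by push_cast; ring, hshift]
      exact ih s hs
    | pred i ih =>
      intro s hs
      rw [← hshift, show (s + ((-(i : ℤ) - 1 : ℤ) : ℝ)) + 1 = s + ((-(i : ℤ) : ℤ) : ℝ) by
        push_cast; ring]
      exact ih s hs
  intro t
  have := hint ⌊t⌋ (t - ⌊t⌋) ⟨by linarith [Int.floor_le t], by linarith [Int.lt_floor_add_one t]⟩
  simpa [P] using this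

/-- A tamed fibre-invariant almost complex structure on a torus bundle over the circle has a
compatible symplectic form. -/
theorem exists_compatible (hJ : IsInvariantACS A J) {ω : E → E →L[ℝ] E →L[ℝ] ℝ}
    (hω : IsClosedForm A ω) (hT : Tames J ω) :
    ∃ ω', IsClosedForm A ω' ∧ Tames J ω' ∧ IsInvariantForm J ω' := by
  set B := meanForm ω
  have hB := meanForm_skew hω
  have hB0 : ∀ v, B e0 v = 0 := fun v => by
    simp [B, meanForm, e0, Prod.mk_zero_zero]
  have hG := meanForm_glue hω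
  obtain ⟨T, hpos⟩ := exists_tames hJ hG fun t l h1 h2 h3 => meanForm_pos hω hT h1 h2 h3
  refine ⟨fun x => model B J T x.1,
    ⟨(contDiff_model hJ B T).comp contDiff_fst, fun x => model_skew hJ hB T x.1,
      fun x n => by simp, fun t p u v => model_glue hJ hG T t u v,
      model_closed hJ hB hB0 T⟩,
    fun x u hu => hpos x.1 u hu, fun x u v => model_invariant hJ hB T x.1 u v⟩

end Vale.Agent.P204
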