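import Vale.Agent.P204.Model

/-!
P204: the same notions for plain functions, and the passage to continuous linear maps.
-/

namespace Vale.Agent.P204

/-- The derivative `(s, v) ↦ (s, A v)` of the deck transformation. -/
noncomputable def glueFun (A : (Matrix (Fin 3) (Fin 3) ℤ)ˣ) (u : E) : E :=
  (u.1, (realMat A).mulVec u.2)

/-- A smooth almost complex structure on `X_A` invariant under translations of the fibres. -/
structure InvariantACS (A : (Matrix (Fin 3) (Fin 3) ℤ)ˣ) (J : ℝ → E → E) : Prop where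
  linear : ∀ t, IsLinearMap ℝ (J t)
  smooth : ∀ u, ContDiff ℝ (⊤ : ℕ∞) fun t => J t u
  sq : ∀ t u, J t (J t u) = -u
  descend : ∀ t u, J (t + 1) (glueFun A u) = glueFun A (J t u)

/-- A smooth closed two-form on `X_A`, seen on the universal cover. -/
structure ClosedTwoForm (A : (Matrix (Fin 3) (Fin 3) ℤ)ˣ) (ω : E → E → E → ℝ) : Prop where
  linear : ∀ x v, IsLinearMap ℝ fun u => ω x u v
  smooth : ∀ u v, ContDiff ℝ (⊤ : ℕ∞) fun x => ω x u v
  skew : ∀ x u v, ω x u v = -ω x v u
  periodic : ∀ x n u v, ω (x + ((0 : ℝ), intVec n)) u v = ω x u v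
  descend : ∀ t p u v, ω (t + 1, (realMat A).mulVec p) (glueFun A u) (glueFun A v) = ω (t, p) u v
  closed : ∀ x u v w, fderiv ℝ (fun y => ω y v w) x u + fderiv ℝ (fun y => ω y w u) x v
    + fderiv ℝ (fun y => ω y u v) x w = 0

/-- `ω` is positive on every complex line of `J`, hence nondegenerate. -/
def TamesFun (J : ℝ → E → E) (ω : E → E → E → ℝ) : Prop :=
  ∀ x u, u ≠ 0 → 0 < ω x u (J x.1 u)

/-- `ω` is invariant under `J`. -/
def InvariantFun (J : ℝ → E → E) (ω : E → E → E → ℝ) : Prop :=
  ∀ x u v, ω x (J x.1 u) (J x.1 v) = ω x u v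

lemma glue_apply (A : (Matrix (Fin 3) (Fin 3) ℤ)ˣ) (u : E) : glue A u = glueFun A u := rfl

lemma fderiv_eval₂ {f : E → E →L[ℝ] E →L[ℝ] ℝ} (hf : Differentiable ℝ f) (x h u v : E) :
    fderiv ℝ (fun y => f y u v) x h = fderiv ℝ f x h u v := by
  have h0 := (hf x).hasFDerivAt
  have h1 := (h0.clm_apply (hasFDerivAt_const u x)).clm_apply (hasFDerivAt_const v x)
  rw [h1.fderiv]
  simp

/-- The main theorem for plain functions. -/
theorem exists_compatible_fun {A : (Matrix (Fin 3) (Fin 3) ℤ)ˣ} {J : ℝ → E → E}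
    {ω : E → E → E → ℝ} (hJ : InvariantACS A J) (hω : ClosedTwoForm A ω) (hT : TamesFun J ω) :
    ∃ ω', ClosedTwoForm A ω' ∧ TamesFun J ω' ∧ InvariantFun J ω' := by
  set Jc : ℝ → E →L[ℝ] E := fun t =>
    LinearMap.toContinuousLinearMap (IsLinearMap.mk' (J t) (hJ.linear t))
  have hJc : IsInvariantACS A Jc :=
    ⟨contDiff_clm_apply_iff.2 fun u => hJ.smooth u, fun t u => hJ.sq t u,
      fun t u => hJ.descend t u⟩
  have hlin : ∀ x u, IsLinearMap ℝ fun v => ω x u v := fun x u =>
    ⟨fun a b => by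
      rw [hω.skew, hω.skew x u a, hω.skew x u b, (hω.linear x u).map_add]; ring,
     fun c a => by
      rw [hω.skew, hω.skew x u a, (hω.linear x u).map_smul, smul_neg]⟩
  set ωc : E → E →L[ℝ] E →L[ℝ] ℝ := fun x => LinearMap.toContinuousLinearMap
    { toFun := fun u => LinearMap.toContinuousLinearMap (IsLinearMap.mk' _ (hlin x u))
      map_add' := fun a b => ContinuousLinearMap.ext fun v => (hω.linear x v).map_add a b
      map_smul' := fun c a => ContinuousLinearMap.ext fun v => (hω.linear x v).map_smul c a }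
  have hsm : ContDiff ℝ (⊤ : ℕ∞) ωc :=
    contDiff_clm_apply_iff.2 fun u => contDiff_clm_apply_iff.2 fun v => hω.smooth u v
  have hωc : IsClosedForm A ωc :=
    ⟨hsm, fun x u v => hω.skew x u v,
      fun x n => ContinuousLinearMap.ext fun u => ContinuousLinearMap.ext fun v =>
        hω.periodic x n u v,
      fun t p u v => hω.descend t p u v, fun x u v w => by
        simp only [← fderiv_eval₂ (hsm.differentiable (by simp))]
        exact hω.closed x u v w⟩
  obtain ⟨Ω, hΩ, hΩT, hΩJ⟩ := exists_compatible hJc hωc fun x u hu => hT x u hu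
  refine ⟨fun x u v => Ω x u v,
    ⟨fun x v => ⟨fun a b => by simp, fun c a => by simp⟩,
      fun u v => (hΩ.smooth.clm_apply contDiff_const).clm_apply contDiff_const,
      hΩ.skew, fun x n u v => by rw [hΩ.periodic], fun t p u v => hΩ.descend t p u v,
      fun x u v w => by
        simp only [fderiv_eval₂ (hΩ.smooth.differentiable (by simp))]
        exact hΩ.closed x u v w⟩,
    fun x u hu => hΩT x u hu, fun x u v => hΩJ x u v⟩

end Vale.Agent.P204
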